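import Vale.Agent.P085.Final.Assembly
import Vale.Agent.P085.Flat.Pave

/-!
# P085: every type II₁ factor with separable predual is singly generated
-/

namespace Vale.Agent.Results.P085.SinglyGenerated

open Vale.Agent.P085

universe u

/-- the generator problem has a positive answer for type II₁ factors -/
theorem result : GeneratorProblemIIOne.{u} := by
  intro H _ _ _ _ M hM
  obtain ⟨hfac, hinf, ξ, hξ⟩ := hM
  have T : Setup M ξ := ⟨hξ, hfac, hinf⟩
  exact singly_of T (paveOut T)

end Vale.Agent.Results.P085.SinglyGenerated
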